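import Mathlib

/-!
Prékopa–Leindler inequality (midpoint form) on Euclidean space.
-/

set_option autoImplicit false

open MeasureTheory Set
open scoped ENNReal Pointwise

namespace Crest.Agent.PL

/-- One-dimensional Brunn–Minkowski, compact case. -/
theorem bm_compact {K L C : Set ℝ} (hK : IsCompact K) (hL : IsCompact L) (hKn : K.Nonempty)
    (hLn : L.Nonempty) (h : ∀ x ∈ K, ∀ y ∈ L, x + y ∈ C) :
    volume K + volume L ≤ volume C := by
  obtain ⟨a, haK, ha⟩ := hK.exists_isGreatest hKn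
  obtain ⟨b, hbL, hb⟩ := hL.exists_isLeast hLn
  set K' : Set ℝ := (fun x => x - b) ⁻¹' K with hK'
  set L' : Set ℝ := (fun x => x - a) ⁻¹' L with hL'
  have hvK : volume K' = volume K := by
    simp only [hK', sub_eq_add_neg]
    exact measure_preimage_add_right volume (-b) K
  have hvL : volume L' = volume L := by
    simp only [hL', sub_eq_add_neg]
    exact measure_preimage_add_right volume (-a) L
  have hL'm : MeasurableSet L' := hL.measurableSet.preimage (by fun_prop)
  have hsub : K' ∪ L' ⊆ C := by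
    rintro z (hz | hz)
    · have := h _ hz _ hbL
      simpa using this
    · have := h _ haK _ hz
      simpa using this
  have hdisj : AEDisjoint volume K' L' := by
    refine measure_mono_null (t := {a + b}) ?_ (measure_singleton _)
    rintro z ⟨hz1, hz2⟩
    have h1 : z - b ≤ a := ha hz1
    have h2 : b ≤ z - a := hb hz2
    simp only [mem_singleton_iff]
    linarith
  calc volume K + volume L = volume K' + volume L' := by rw [hvK, hvL]
    _ = volume (K' ∪ L') := (measure_union₀ hL'm.nullMeasurableSet hdisj).symm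
    _ ≤ volume C := measure_mono hsub

theorem measure_eq_iSup_compact_nonempty {A : Set ℝ} (hA : MeasurableSet A) (hn : A.Nonempty) :
    volume A = ⨆ K : {K : Set ℝ // K ⊆ A ∧ IsCompact K ∧ K.Nonempty}, volume K.1 := by
  apply le_antisymm
  · refine le_of_forall_lt fun r hr => ?_
    obtain ⟨K, hKA, hK, hrK⟩ := hA.exists_lt_isCompact hr
    obtain ⟨a, ha⟩ := hn
    refine lt_of_lt_of_le hrK ?_
    refine le_trans (measure_mono (subset_insert a K)) ?_
    exact le_iSup (fun K : {K : Set ℝ // K ⊆ A ∧ IsCompact K ∧ K.Nonempty} => volume K.1)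
      ⟨insert a K, insert_subset ha hKA, hK.insert a, insert_nonempty a K⟩
  · exact iSup_le fun K => measure_mono K.2.1

/-- One-dimensional Brunn–Minkowski inequality. -/
theorem bm_one {A B C : Set ℝ} (hA : MeasurableSet A) (hB : MeasurableSet B) (hAn : A.Nonempty)
    (hBn : B.Nonempty) (h : ∀ x ∈ A, ∀ y ∈ B, x + y ∈ C) :
    volume A + volume B ≤ volume C := by
  rw [measure_eq_iSup_compact_nonempty hA hAn, measure_eq_iSup_compact_nonempty hB hBn]
  obtain ⟨a, ha⟩ := hAn
  obtain ⟨b, hb⟩ := hBn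
  have : Nonempty {K : Set ℝ // K ⊆ A ∧ IsCompact K ∧ K.Nonempty} :=
    ⟨⟨{a}, by simpa using ha, isCompact_singleton, singleton_nonempty a⟩⟩
  have : Nonempty {K : Set ℝ // K ⊆ B ∧ IsCompact K ∧ K.Nonempty} :=
    ⟨⟨{b}, by simpa using hb, isCompact_singleton, singleton_nonempty b⟩⟩
  refine ENNReal.iSup_add_iSup_le fun K L => ?_
  exact bm_compact K.2.2.1 L.2.2.1 K.2.2.2 L.2.2.2 fun x hx y hy => h x (K.2.1 hx) y (L.2.1 hy)

/-- Midpoint form of the one-dimensional Brunn–Minkowski inequality. -/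
theorem bm_one_mid {A B C : Set ℝ} (hA : MeasurableSet A) (hB : MeasurableSet B)
    (hAn : A.Nonempty) (hBn : B.Nonempty)
    (h : ∀ x ∈ A, ∀ y ∈ B, (1 / 2 : ℝ) * (x + y) ∈ C) :
    volume A + volume B ≤ 2 * volume C := by
  have h1 := bm_one (C := (fun z => (1 / 2 : ℝ) * z) ⁻¹' C) hA hB hAn hBn h
  have h2 : volume ((fun z => (1 / 2 : ℝ) * z) ⁻¹' C) = 2 * volume C := by
    rw [Real.volume_preimage_mul_left (by norm_num : (1 / 2 : ℝ) ≠ 0)]
    congr 1
    norm_num
  rwa [h2] at h1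

theorem vol_sub_level (a : ℝ≥0∞) :
    (volume.restrict (Ioi (0 : ℝ))) {t : ℝ | ENNReal.ofReal t < a} = a := by
  have hm : MeasurableSet {t : ℝ | ENNReal.ofReal t < a} :=
    measurableSet_lt (by fun_prop) measurable_const
  rw [Measure.restrict_apply hm]
  rcases eq_or_ne a ⊤ with rfl | ha
  · have : {t : ℝ | ENNReal.ofReal t < ⊤} ∩ Ioi (0 : ℝ) = Ioi 0 := by
      ext t; simp
    rw [this]; simp
  · have : {t : ℝ | ENNReal.ofReal t < a} ∩ Ioi (0 : ℝ) = Ioo 0 a.toReal := by
      ext t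
      simp only [mem_inter_iff, mem_ofPred_eq, mem_Ioi, mem_Ioo]
      constructor
      · rintro ⟨h1, h2⟩
        exact ⟨h2, (ENNReal.ofReal_lt_iff_lt_toReal h2.le ha).1 h1⟩
      · rintro ⟨h1, h2⟩
        exact ⟨(ENNReal.ofReal_lt_iff_lt_toReal h1.le ha).2 h2, h1⟩
    rw [this]; simp [ha]

/-- Layer-cake formula for `ℝ≥0∞`-valued functions. -/
theorem layercake {α : Type*} [MeasurableSpace α] (μ : Measure α) [SFinite μ]
    (f : α → ℝ≥0∞) (hf : Measurable f) :
    ∫⁻ x, f x ∂μ = ∫⁻ t in Ioi (0 : ℝ), μ {x | ENNReal.ofReal t < f x} := by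
  have hS : MeasurableSet {p : α × ℝ | ENNReal.ofReal p.2 < f p.1} :=
    measurableSet_lt (by fun_prop) (by fun_prop)
  have h1 := Measure.prod_apply (μ := μ) (ν := volume.restrict (Ioi (0 : ℝ))) hS
  have h2 := Measure.prod_apply_symm (μ := μ) (ν := volume.restrict (Ioi (0 : ℝ))) hS
  rw [h1] at h2
  refine Eq.trans ?_ h2
  refine lintegral_congr fun x => ?_
  exact (vol_sub_level (f x)).symm

theorem measurable_level {α : Type*} [MeasurableSpace α] (μ : Measure α) [SFinite μ]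
    (f : α → ℝ≥0∞) (hf : Measurable f) :
    Measurable fun t : ℝ => μ {x | ENNReal.ofReal t < f x} := by
  have hS : MeasurableSet {p : ℝ × α | ENNReal.ofReal p.1 < f p.2} :=
    measurableSet_lt (by fun_prop) (by fun_prop)
  exact measurable_measure_prodMk_left hS

/-- Normalised one-dimensional case. -/
theorem pl_one_norm (f g h : ℝ → ℝ≥0∞) (hf : Measurable f) (hg : Measurable g)
    (hh : Measurable h) (hf1 : ⨆ x, f x = 1) (hg1 : ⨆ x, g x = 1)
    (H : ∀ x y, f x * g y ≤ h ((1 / 2 : ℝ) * (x + y)) ^ 2) :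
    (∫⁻ x, f x) + (∫⁻ y, g y) ≤ 2 * ∫⁻ z, h z := by
  rw [layercake volume f hf, layercake volume g hg, layercake volume h hh,
    ← lintegral_add_left (measurable_level volume f hf),
    ← lintegral_const_mul _ (measurable_level volume h hh)]
  refine lintegral_mono fun t => ?_
  rcases lt_or_ge (ENNReal.ofReal t) 1 with ht | ht
  · refine bm_one_mid (measurableSet_lt measurable_const hf) (measurableSet_lt measurable_const hg)
      ?_ ?_ ?_
    · rw [← hf1] at ht
      exact lt_iSup_iff.1 ht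
    · rw [← hg1] at ht
      exact lt_iSup_iff.1 ht
    · intro x hx y hy
      simp only [mem_ofPred_eq] at hx hy ⊢
      by_contra hcon
      push Not at hcon
      have h1 : ENNReal.ofReal t * ENNReal.ofReal t < f x * g y := ENNReal.mul_lt_mul hx hy
      have h2 : h ((1 / 2 : ℝ) * (x + y)) ^ 2 ≤ ENNReal.ofReal t * ENNReal.ofReal t := by
        rw [sq]; exact mul_le_mul' hcon hcon
      exact absurd (lt_of_lt_of_le h1 ((H x y).trans h2)) (lt_irrefl _)
  · have e1 : {x | ENNReal.ofReal t < f x} = ∅ := by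
      ext x
      simp only [mem_ofPred_eq, mem_empty_iff_false, iff_false, not_lt]
      exact le_trans (hf1 ▸ le_iSup f x) ht
    have e2 : {x | ENNReal.ofReal t < g x} = ∅ := by
      ext x
      simp only [mem_ofPred_eq, mem_empty_iff_false, iff_false, not_lt]
      exact le_trans (hg1 ▸ le_iSup g x) ht
    simp [e1, e2]

theorem mul_le_sq_of_add_le {a b c : ℝ≥0∞} (h : a + b ≤ 2 * c) : a * b ≤ c ^ 2 := by
  rcases eq_or_ne c ⊤ with rfl | hc
  · simp
  have h2c : 2 * c ≠ ⊤ := ENNReal.mul_ne_top (by norm_num) hc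
  have hab : a + b ≠ ⊤ := ne_top_of_le_ne_top h2c h
  have ha : a ≠ ⊤ := (ENNReal.add_ne_top.1 hab).1
  have hb : b ≠ ⊤ := (ENNReal.add_ne_top.1 hab).2
  lift a to NNReal using ha
  lift b to NNReal using hb
  lift c to NNReal using hc
  have h' : a + b ≤ 2 * c := by exact_mod_cast h
  have h'' : (a : ℝ) + b ≤ 2 * c := by exact_mod_cast h'
  have : (a : ℝ) * b ≤ (c : ℝ) ^ 2 := by
    nlinarith [sq_nonneg ((a : ℝ) - b), a.2, b.2, c.2, NNReal.coe_nonneg a, NNReal.coe_nonneg b]
  have h3 : a * b ≤ c ^ 2 := by exact_mod_cast this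
  exact_mod_cast h3

/-- Bounded one-dimensional case. -/
theorem pl_one_bdd (f g h : ℝ → ℝ≥0∞) (hf : Measurable f) (hg : Measurable g)
    (hh : Measurable h) (hf1 : ⨆ x, f x ≠ ⊤) (hg1 : ⨆ x, g x ≠ ⊤)
    (H : ∀ x y, f x * g y ≤ h ((1 / 2 : ℝ) * (x + y)) ^ 2) :
    (∫⁻ x, f x) * (∫⁻ y, g y) ≤ (∫⁻ z, h z) ^ 2 := by
  set α := ⨆ x, f x with hα
  set β := ⨆ x, g x with hβ
  rcases eq_or_ne α 0 with h0 | hα0
  · have : ∀ x, f x = 0 := fun x => le_antisymm (h0 ▸ le_iSup f x) bot_le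
    simp [this]
  rcases eq_or_ne β 0 with h0 | hβ0
  · have : ∀ x, g x = 0 := fun x => le_antisymm (h0 ▸ le_iSup g x) bot_le
    simp [this]
  set γ : ℝ≥0∞ := (α⁻¹ * β⁻¹) ^ (1 / 2 : ℝ) with hγ
  have hγ2 : γ ^ 2 = α⁻¹ * β⁻¹ := by
    rw [hγ, ← ENNReal.rpow_natCast, ← ENNReal.rpow_mul]
    norm_num
  have key := pl_one_norm (fun x => f x * α⁻¹) (fun x => g x * β⁻¹) (fun x => h x * γ)
    (by fun_prop) (by fun_prop) (by fun_prop)
    (by rw [← ENNReal.iSup_mul]; exact ENNReal.mul_inv_cancel hα0 hf1)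
    (by rw [← ENNReal.iSup_mul]; exact ENNReal.mul_inv_cancel hβ0 hg1)
    (by
      intro x y
      rw [mul_pow, hγ2, mul_mul_mul_comm]
      exact mul_le_mul' (H x y) le_rfl)
  have key2 := mul_le_sq_of_add_le key
  rw [lintegral_mul_const _ hf, lintegral_mul_const _ hg, lintegral_mul_const _ hh, mul_pow, hγ2,
    mul_mul_mul_comm] at key2
  refine (ENNReal.mul_le_mul_iff_left ?_ ?_).1 key2
  · exact mul_ne_zero (ENNReal.inv_ne_zero.2 hf1) (ENNReal.inv_ne_zero.2 hg1)
  · exact ENNReal.mul_ne_top (ENNReal.inv_ne_top.2 hα0) (ENNReal.inv_ne_top.2 hβ0)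

theorem lintegral_eq_iSup_min {α : Type*} [MeasurableSpace α] (μ : Measure α)
    (f : α → ℝ≥0∞) (hf : Measurable f) :
    ∫⁻ x, f x ∂μ = ⨆ n : ℕ, ∫⁻ x, min (f x) n ∂μ := by
  rw [← lintegral_iSup]
  · refine lintegral_congr fun x => ?_
    rw [← inf_iSup_eq (f x) (fun n : ℕ => (n : ℝ≥0∞))]
    simp [ENNReal.iSup_natCast]
  · intro n; fun_prop
  · intro m n hmn x
    exact min_le_min le_rfl (by exact_mod_cast hmn)

/-- One-dimensional Prékopa–Leindler inequality. -/
theorem pl_one (f g h : ℝ → ℝ≥0∞) (hf : Measurable f) (hg : Measurable g)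
    (hh : Measurable h) (H : ∀ x y, f x * g y ≤ h ((1 / 2 : ℝ) * (x + y)) ^ 2) :
    (∫⁻ x, f x) * (∫⁻ y, g y) ≤ (∫⁻ z, h z) ^ 2 := by
  rw [lintegral_eq_iSup_min volume f hf, lintegral_eq_iSup_min volume g hg, ENNReal.iSup_mul]
  refine iSup_le fun n => ?_
  rw [ENNReal.mul_iSup]
  refine iSup_le fun m => ?_
  refine pl_one_bdd _ _ h (by fun_prop) (by fun_prop) hh ?_ ?_ ?_
  · exact ne_top_of_le_ne_top (ENNReal.natCast_ne_top n) (iSup_le fun x => min_le_right _ _)
  · exact ne_top_of_le_ne_top (ENNReal.natCast_ne_top m) (iSup_le fun x => min_le_right _ _)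
  · intro x y
    exact le_trans (mul_le_mul' (min_le_left _ _) (min_le_left _ _)) (H x y)

/-- The midpoint Prékopa–Leindler property of a measure on a real vector space. -/
def HasPL {E : Type*} [MeasurableSpace E] [AddCommGroup E] [Module ℝ E] (μ : Measure E) : Prop :=
  ∀ f g h : E → ℝ≥0∞, Measurable f → Measurable g → Measurable h →
    (∀ x y, f x * g y ≤ h ((1 / 2 : ℝ) • (x + y)) ^ 2) →
      (∫⁻ x, f x ∂μ) * (∫⁻ y, g y ∂μ) ≤ (∫⁻ z, h z ∂μ) ^ 2

theorem hasPL_real : HasPL (volume : Measure ℝ) := fun f g h hf hg hh H =>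
  pl_one f g h hf hg hh H

theorem HasPL.prod {E F : Type*} [MeasurableSpace E] [AddCommGroup E] [Module ℝ E]
    [MeasurableSpace F] [AddCommGroup F] [Module ℝ F] {μ : Measure E} {ν : Measure F}
    [SFinite ν] (hμ : HasPL μ) (hν : HasPL ν) : HasPL (μ.prod ν) := by
  intro f g h hf hg hh H
  rw [lintegral_prod _ hf.aemeasurable, lintegral_prod _ hg.aemeasurable,
    lintegral_prod _ hh.aemeasurable]
  refine hμ _ _ _ hf.lintegral_prod_right' hg.lintegral_prod_right' hh.lintegral_prod_right' ?_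
  intro x y
  refine hν _ _ _ (by fun_prop) (by fun_prop) (by fun_prop) ?_
  intro u v
  exact H (x, u) (y, v)

theorem HasPL.of_equiv {E F : Type*} [MeasurableSpace E] [AddCommGroup E] [Module ℝ E]
    [MeasurableSpace F] [AddCommGroup F] [Module ℝ F] {μ : Measure E} {ν : Measure F}
    (e : E ≃ᵐ F) (he : MeasurePreserving e μ ν)
    (hlin : ∀ x y, e ((1 / 2 : ℝ) • (x + y)) = (1 / 2 : ℝ) • (e x + e y))
    (hμ : HasPL μ) : HasPL ν := by
  intro f g h hf hg hh H
  rw [← he.lintegral_comp hf, ← he.lintegral_comp hg, ← he.lintegral_comp hh]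
  refine hμ _ _ _ (hf.comp e.measurable) (hg.comp e.measurable) (hh.comp e.measurable) ?_
  intro x y
  rw [hlin]
  exact H _ _

theorem hasPL_pi (d : ℕ) : HasPL (volume : Measure (Fin d → ℝ)) := by
  induction d with
  | zero =>
    intro f g h hf hg hh H
    have hu : (volume : Measure (Fin 0 → ℝ)) univ = 1 := by
      rw [volume_pi, Measure.pi_univ]; simp
    simp only [lintegral_unique, hu, mul_one]
    refine le_trans (H _ _) (le_of_eq ?_)
    congr 2
    exact Subsingleton.elim _ _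
  | succ d ih =>
    have h1 : HasPL ((volume : Measure ℝ).prod (volume : Measure (Fin d → ℝ))) :=
      hasPL_real.prod ih
    refine HasPL.of_equiv (MeasurableEquiv.piFinSuccAbove (fun _ : Fin (d + 1) => ℝ) 0).symm
      (volume_preserving_piFinSuccAbove (fun _ : Fin (d + 1) => ℝ) 0).symm ?_ h1
    intro x y
    ext i
    refine Fin.cases ?_ (fun j => ?_) i <;>
      simp [MeasurableEquiv.piFinSuccAbove, Fin.insertNthEquiv, mul_add]

theorem hasPL_euclidean (d : ℕ) : HasPL (volume : Measure (EuclideanSpace ℝ (Fin d))) := by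
  refine HasPL.of_equiv (MeasurableEquiv.toLp 2 (Fin d → ℝ))
    (PiLp.volume_preserving_toLp (Fin d)) ?_ (hasPL_pi d)
  intro x y
  simp

/-- **Prékopa–Leindler inequality** (midpoint form). -/
theorem prekopa_leindler {d : ℕ} (f g h : EuclideanSpace ℝ (Fin d) → ENNReal)
    (hf : Measurable f) (hg : Measurable g) (hh : Measurable h)
    (H : ∀ x y, f x * g y ≤ h ((1 / 2 : ℝ) • (x + y)) ^ 2) :
    (∫⁻ x, f x) * (∫⁻ y, g y) ≤ (∫⁻ z, h z) ^ 2 :=
  hasPL_euclidean d f g h hf hg hh H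

end Crest.Agent.PL
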